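import Vale.Agent.P028.MathlibUsed
import Vale.Agent.P028.R226.Phase

/-!
# The chain lemma: removers of one place in different phases

At most eleven elements with the same labels outside the stage `i`, aligned at stage `i` with one
element `y`, can have successive phase ends.
-/

namespace Vale.P028.H995

open Finset PA

variable {P : Par} {D : Dat}

/-- an element which wants to change its fraction has a radius which is not too small -/
theorem wants_rho {s : ℕ → State} {j q : ℕ} {G : ℚ} {b : Bool} (hs : s q = some (G, b))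
    (hw : Wants P D s j q) : 1 ≤ 2 * (KK D j q G) ^ 3 * rho D j q ∧ rho D j q ≤ P.ρ0 := by
  obtain ⟨F, F', h1, h2, h3, h4, -⟩ := hw
  rw [hs, Option.some.injEq, Prod.mk.injEq] at h1
  obtain ⟨rfl, -⟩ := h1
  refine ⟨?_, h2.1⟩
  by_contra hcon
  rw [not_le] at hcon
  apply h3
  have hK := one_le_KK D j q G
  have h5 : KK D j q F' ≤ KK D j q G := by
    refine h4.trans ?_
    calc (KK D j q G) ^ (1 / 2 : ℝ) ≤ (KK D j q G) ^ (1 : ℝ) :=
          Real.rpow_le_rpow_of_exponent_le hK (by norm_num)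
      _ = _ := Real.rpow_one _
  exact Kc_unique (D.ψ_pos q) (D.M_pos j q) h5 le_rfl hcon

/-- two different fractions of two elements with the same deficit -/
theorem two_fractions {i q r M : ℕ} {G G' : ℚ} {κ ρ : ℝ} (hq : D.M i q = M) (hr : D.M i r = M)
    (hG : KK D i q G ≤ κ) (hG' : KK D i r G' ≤ κ) (hne : G ≠ G')
    (h1 : rho D i q ≤ ρ) (h2 : rho D i r ≤ ρ) : 1 ≤ 2 * κ ^ 3 * ρ := by
  by_contra hcon
  rw [not_le] at hcon
  apply hne
  have hMpos : 0 < M := hq ▸ D.M_pos i q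
  have hMr : (0 : ℝ) < M := by exact_mod_cast hMpos
  -- the larger radius
  obtain ⟨ψ, hψ, hψq, hψr, hψρ⟩ : ∃ ψ : ℝ, 0 < ψ ∧ D.ψ q ≤ ψ ∧ D.ψ r ≤ ψ ∧ M * ψ ≤ ρ := by
    refine ⟨max (D.ψ q) (D.ψ r), lt_max_of_lt_left (D.ψ_pos q), le_max_left _ _,
      le_max_right _ _, ?_⟩
    rcases le_total (D.ψ q) (D.ψ r) with h | h
    · rw [max_eq_right h]
      unfold rho at h2
      rwa [hr] at h2
    · rw [max_eq_left h]
      unfold rho at h1
      rwa [hq] at h1
  have mono : ∀ (ψ' : ℝ) (H : ℚ), 0 < ψ' → ψ' ≤ ψ → Kc D.γ ψ' M H ≤ κ → Kc D.γ ψ M H ≤ κ := by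
    intro ψ' H h0 hle hk
    refine le_trans ?_ hk
    unfold Kc
    refine max_le_max le_rfl ?_
    exact div_le_div_of_nonneg_left (abs_nonneg _) h0 hle
  have e1 : Kc D.γ ψ M G ≤ κ := by
    refine mono (D.ψ q) G (D.ψ_pos q) hψq ?_
    unfold KK at hG
    rwa [hq] at hG
  have e2 : Kc D.γ ψ M G' ≤ κ := by
    refine mono (D.ψ r) G' (D.ψ_pos r) hψr ?_
    unfold KK at hG'
    rwa [hr] at hG'
  have hκ0 : 0 < κ := lt_of_lt_of_le (Kc_pos _ _ _ _) e1
  refine Kc_unique hψ hMpos e1 e2 (lt_of_le_of_lt ?_ hcon)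
  exact mul_le_mul_of_nonneg_left hψρ (by positivity)

/-- one partner with the same fraction for two elements: the complexity is small -/
theorem same_fraction {i y : ℕ} {F G : ℚ} {W m m' : ℕ} (hm : m ≠ m')
    (h1 : ∃ k : ℤ, (W : ℚ) * G - ((D.M i y * m : ℕ) : ℚ) * F = k)
    (h2 : ∃ k : ℤ, (W : ℚ) * G - ((D.M i y * m' : ℕ) : ℚ) * F = k)
    (c1 : |(W : ℝ) * (D.γ - G) - ((D.M i y * m : ℕ) : ℝ) * (D.γ - F)| ≤ 2 * (m * rho D i y))
    (c2 : |(W : ℝ) * (D.γ - G) - ((D.M i y * m' : ℕ) : ℝ) * (D.γ - F)| ≤ 2 * (m' * rho D i y)) :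
    KK D i y F ≤ 2 * ((m : ℝ) + m') := by
  have hd1 : (1 : ℝ) ≤ |(m : ℝ) - m'| := by
    have h3 : ((m : ℤ) - m') ≠ 0 := by
      intro h
      apply hm
      omega
    have h4 := Int.one_le_abs h3
    have h5 : ((1 : ℤ) : ℝ) ≤ ((|(m : ℤ) - m'| : ℤ) : ℝ) := by exact_mod_cast h4
    push_cast at h5
    exact h5
  have hm0 : (0 : ℝ) ≤ m := Nat.cast_nonneg _
  have hm0' : (0 : ℝ) ≤ m' := Nat.cast_nonneg _
  have hψ := D.ψ_pos y
  have hM : (0 : ℝ) < D.M i y := by exact_mod_cast D.M_pos i y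
  unfold KK Kc
  refine max_le ?_ ?_
  · -- the denominator divides the difference
    obtain ⟨k, hk⟩ := h1
    obtain ⟨k', hk'⟩ := h2
    have e : ((m : ℤ) - m' : ℚ) * ((D.M i y : ℚ) * F) = ((k' - k : ℤ) : ℚ) := by
      push_cast at hk hk' ⊢
      linarith
    have hdvd : (((D.M i y : ℚ) * F).den : ℤ) ∣ ((m : ℤ) - m') := by
      set x : ℚ := (D.M i y : ℚ) * F with hx
      have h3 : ((m : ℤ) - m' : ℤ) * x.num = (k' - k) * x.den := by
        have h4 : x = x.num / x.den := (Rat.num_div_den x).symm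
        have h5 : (x.den : ℚ) ≠ 0 := by exact_mod_cast x.den_ne_zero
        rw [h4] at e
        field_simp at e
        have e' : ((((m : ℤ) - m' : ℤ) * x.num : ℤ) : ℚ) = (((k' - k) * x.den : ℤ) : ℚ) := by
          push_cast at e ⊢
          linarith
        exact_mod_cast e'
      have h6 : (x.den : ℤ) ∣ ((m : ℤ) - m' : ℤ) * x.num := ⟨k' - k, by rw [h3]; ring⟩
      have h7 : IsCoprime (x.den : ℤ) x.num := by
        rw [Int.isCoprime_iff_gcd_eq_one, Int.gcd_comm]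
        exact x.reduced
      exact h7.dvd_of_dvd_mul_right h6
    have h8 : (((D.M i y : ℚ) * F).den : ℤ) ≤ |(m : ℤ) - m'| := by
      apply Int.le_of_dvd
      · have h3 : ((m : ℤ) - m') ≠ 0 := by
          intro h
          apply hm
          omega
        exact abs_pos.2 h3
      · exact (dvd_abs _ _).2 hdvd
    have h9 : ((((D.M i y : ℚ) * F).den : ℕ) : ℝ) ≤ |(m : ℝ) - m'| := by
      have h10 : (((((D.M i y : ℚ) * F).den : ℤ)) : ℝ) ≤ ((|(m : ℤ) - m'| : ℤ) : ℝ) := by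
        exact_mod_cast h8
      push_cast at h10
      exact h10
    have h11 : |(m : ℝ) - m'| ≤ m + m' := by
      rw [abs_le]
      constructor <;> linarith
    linarith
  · -- the archimedean part
    rw [div_le_iff₀ hψ]
    have h3 : |((D.M i y : ℝ) * ((m : ℝ) - m')) * (D.γ - F)| ≤
        2 * ((m : ℝ) + m') * rho D i y := by
      have e : ((D.M i y : ℝ) * ((m : ℝ) - m')) * (D.γ - F) =
          ((W : ℝ) * (D.γ - G) - ((D.M i y * m' : ℕ) : ℝ) * (D.γ - F)) -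
          ((W : ℝ) * (D.γ - G) - ((D.M i y * m : ℕ) : ℝ) * (D.γ - F)) := by
        push_cast
        ring
      rw [e]
      refine (abs_sub _ _).trans ?_
      linarith
    rw [abs_mul, abs_mul, abs_of_pos hM] at h3
    unfold rho at h3
    have h4 : |(m : ℝ) - m'| * |D.γ - F| ≤ 2 * ((m : ℝ) + m') * D.ψ y := by
      have h5 : (D.M i y : ℝ) * (|(m : ℝ) - m'| * |D.γ - F|) ≤
          (D.M i y : ℝ) * (2 * ((m : ℝ) + m') * D.ψ y) := by linarith
      exact le_of_mul_le_mul_left h5 hM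
    have h6 : 1 * |D.γ - (F : ℝ)| ≤ |(m : ℝ) - m'| * |D.γ - F| :=
      mul_le_mul_of_nonneg_right hd1 (abs_nonneg _)
    linarith

/-- THE CHAIN LEMMA -/
theorem chain_le {i y n W Mw : ℕ} {F : ℚ} {κ R : ℝ} (x : ℕ → ℕ) (G : ℕ → ℚ) (m : ℕ → ℕ)
    (s : ℕ → ℕ) (σ : ℕ → ℕ → State)
    (hMw : ∀ t < n, D.M i (x t) = Mw) (hm2 : ∀ t < n, 1 ≤ m t)
    (hinj : ∀ t < n, ∀ t' < n, m t = m t' → t = t')
    (hal : ∀ t < n, ∃ k : ℤ, (W : ℚ) * G t - ((D.M i y * m t : ℕ) : ℚ) * F = k)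
    (hcone : ∀ t < n, |(W : ℝ) * (D.γ - G t) - ((D.M i y * m t : ℕ) : ℝ) * (D.γ - F)| ≤
      2 * (m t * rho D i y))
    (hR : ∀ t < n, rho D i (x t) = R * m t)
    (hκ : ∀ t < n, KK D i (x t) (G t) ≤ κ)
    (hκK : κ ≤ (KK D i y F) ^ 2) (hR2 : 2 * κ ^ 3 * √R < 1) (hK : 512 ≤ KK D i y F)
    (hst : ∀ t, t + 1 < n → ∃ b, σ t (x t) = some (G t, b))
    (hw : ∀ t, t + 1 < n → Wants P D (σ t) (s t) (x t))
    (his : ∀ t, t + 1 < n → i ≤ s t)
    (h0 : 1 < n → R * m 0 ≤ rho D (s 0) (x 0))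
    (hstep : ∀ t, t + 2 < n → m (t + 1) * rho D (s t) (x t) ≤ rho D (s (t + 1)) (x (t + 1))) :
    n ≤ 11 := by
  by_contra hn
  rw [not_le] at hn
  set K := KK D i y F with hKdef
  have hRpos : 0 < R := by
    have h1 := rho_pos D i (x 0)
    rw [hR 0 (by omega)] at h1
    have h2 : (0 : ℝ) ≤ m 0 := Nat.cast_nonneg _
    by_contra hcon
    have := mul_nonpos_of_nonpos_of_nonneg (not_lt.1 hcon) h2
    linarith
  have hm1 : ∀ t < n, (1 : ℝ) ≤ m t := fun t ht => by exact_mod_cast hm2 t ht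
  -- monotonicity of the complexities
  have KKm : ∀ (q : ℕ) (H : ℚ) (a b : ℕ), a ≤ b → KK D b q H ≤ KK D a q H := by
    intro q H a b hab
    induction b, hab using Nat.le_induction with
    | base => exact le_rfl
    | succ b _ ih => exact (KK_mono D b q H).trans ih
  have hκ1 : 1 ≤ κ := (one_le_KK D i (x 0) (G 0)).trans (hκ 0 (by omega))
  -- the radii at the ends of the phases
  have hrho : ∀ t, t + 1 < n → 1 ≤ 2 * κ ^ 3 * rho D (s t) (x t) ∧
      rho D (s t) (x t) < 1 := by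
    intro t ht
    obtain ⟨b, hb⟩ := hst t ht
    obtain ⟨h1, h2⟩ := wants_rho hb (hw t ht)
    refine ⟨h1.trans ?_, lt_of_le_of_lt h2 P.ρ0_lt⟩
    have h3 : KK D (s t) (x t) (G t) ≤ κ := (KKm _ _ _ _ (his t ht)).trans (hκ t (by omega))
    have h4 : (KK D (s t) (x t) (G t)) ^ 3 ≤ κ ^ 3 :=
      pow_le_pow_left₀ (zero_le_one.trans (one_le_KK D _ _ _)) h3 3
    have h5 := (rho_pos D (s t) (x t)).le
    have h6 := mul_le_mul_of_nonneg_right h4 h5
    linarith
  -- products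
  have hprod : ∀ t, t + 1 < n →
      rho D (s 0) (x 0) * ∏ u ∈ Ico 1 (t + 1), (m u : ℝ) ≤ rho D (s t) (x t) := by
    intro t
    induction t with
    | zero => intro _; simp
    | succ t ih =>
      intro ht
      have h1 := ih (by omega)
      rw [prod_Ico_succ_top (by omega)]
      have h2 := hstep t (by omega)
      have h3 : (0 : ℝ) ≤ m (t + 1) := Nat.cast_nonneg _
      calc rho D (s 0) (x 0) * ((∏ u ∈ Ico 1 (t + 1), (m u : ℝ)) * m (t + 1))
          = m (t + 1) * (rho D (s 0) (x 0) * ∏ u ∈ Ico 1 (t + 1), (m u : ℝ)) := by ring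
        _ ≤ m (t + 1) * rho D (s t) (x t) := mul_le_mul_of_nonneg_left h1 h3
        _ ≤ _ := h2
  have hge1 : ∀ (S : Finset ℕ), (∀ u ∈ S, u < n) → (1 : ℝ) ≤ ∏ u ∈ S, (m u : ℝ) := by
    intro S hS
    calc (1 : ℝ) = ∏ u ∈ S, (1 : ℝ) := by simp
      _ ≤ _ := prod_le_prod (fun _ _ => zero_le_one) (fun u hu => hm1 u (hS u hu))
  obtain ⟨N, rfl⟩ : ∃ N, n = N + 2 := ⟨n - 2, by omega⟩
  have hN : 10 ≤ N := by omega
  have hlast := hprod N (by omega)
  have hlast1 := (hrho N (by omega)).2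
  have hfirst := (hrho 0 (by omega)).1
  have hr0 := rho_pos D (s 0) (x 0)
  -- the product over `1, ..., N`
  have hP1 : ∏ u ∈ Ico 1 (N + 1), (m u : ℝ) < 2 * κ ^ 3 := by
    have h1 : rho D (s 0) (x 0) * ∏ u ∈ Ico 1 (N + 1), (m u : ℝ) < 1 :=
      lt_of_le_of_lt hlast hlast1
    have h2 : rho D (s 0) (x 0) * ∏ u ∈ Ico 1 (N + 1), (m u : ℝ) <
        rho D (s 0) (x 0) * (2 * κ ^ 3) := by
      refine lt_of_lt_of_le h1 ?_
      linarith
    exact lt_of_mul_lt_mul_left h2 hr0.le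
  -- the product over `0, ..., N`
  have hP0 : R * ∏ u ∈ Ico 0 (N + 1), (m u : ℝ) < 1 := by
    rw [prod_eq_prod_Ico_succ_bot (by omega)]
    have h1 := h0 (by omega)
    have h2 := hge1 (Ico 1 (N + 1)) (fun u hu => by rw [mem_Ico] at hu; omega)
    calc R * ((m 0 : ℝ) * ∏ u ∈ Ico (0 + 1) (N + 1), (m u : ℝ))
        = (R * m 0) * ∏ u ∈ Ico 1 (N + 1), (m u : ℝ) := by ring_nf
      _ ≤ rho D (s 0) (x 0) * ∏ u ∈ Ico 1 (N + 1), (m u : ℝ) :=
          mul_le_mul_of_nonneg_right h1 (by linarith)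
      _ ≤ _ := hlast
      _ < 1 := hlast1
  -- the set of the large ones
  classical
  let E1 : Finset ℕ := (Ico 0 (N + 1)).filter (fun u => 1 < √R * m u)
  have hsq : √R * √R = R := Real.mul_self_sqrt hRpos.le
  have hE1 : E1.card ≤ 1 := by
    rw [card_le_one]
    intro u hu v hv
    by_contra huv
    rw [mem_filter, mem_Ico] at hu hv
    have h1 : ({u, v} : Finset ℕ) ⊆ Ico 0 (N + 1) := by
      intro w hw'
      rw [mem_insert, mem_singleton] at hw'
      rw [mem_Ico]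
      omega
    have h2 : ∏ w ∈ ({u, v} : Finset ℕ), (m w : ℝ) ≤ ∏ w ∈ Ico 0 (N + 1), (m w : ℝ) := by
      rw [← prod_sdiff h1]
      have h3 := hge1 (Ico 0 (N + 1) \ {u, v}) (fun w hw' => by
        rw [mem_sdiff, mem_Ico] at hw'; omega)
      have h4 : (0 : ℝ) ≤ ∏ w ∈ ({u, v} : Finset ℕ), (m w : ℝ) :=
        prod_nonneg (fun _ _ => Nat.cast_nonneg _)
      nlinarith
    rw [prod_pair huv] at h2
    have h5 : 1 < (√R * m u) * (√R * m v) := by nlinarith [hu.2, hv.2]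
    have h6 : (√R * m u) * (√R * m v) = R * ((m u : ℝ) * m v) := by
      calc (√R * m u) * (√R * m v) = (√R * √R) * ((m u : ℝ) * m v) := by ring
        _ = _ := by rw [hsq]
    have h7 : R * ((m u : ℝ) * m v) ≤ R * ∏ w ∈ Ico 0 (N + 1), (m w : ℝ) :=
      mul_le_mul_of_nonneg_left h2 hRpos.le
    linarith
  -- outside `E1` all fractions are equal
  have hsame : ∀ u v, u < N + 1 → v < N + 1 → u ∉ E1 → v ∉ E1 → G u = G v := by
    intro u v hu hv hu1 hv1
    by_contra hne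
    have a1 : √R * m u ≤ 1 := by
      by_contra hcon
      exact hu1 (mem_filter.2 ⟨mem_Ico.2 ⟨Nat.zero_le _, hu⟩, not_le.1 hcon⟩)
    have a2 : √R * m v ≤ 1 := by
      by_contra hcon
      exact hv1 (mem_filter.2 ⟨mem_Ico.2 ⟨Nat.zero_le _, hv⟩, not_le.1 hcon⟩)
    have hs0 : 0 ≤ √R := Real.sqrt_nonneg R
    have b1 : rho D i (x u) ≤ √R := by
      rw [hR u (by omega)]
      calc R * m u = √R * (√R * m u) := by rw [← mul_assoc, hsq]
        _ ≤ √R := mul_le_of_le_one_right hs0 a1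
    have b2 : rho D i (x v) ≤ √R := by
      rw [hR v (by omega)]
      calc R * m v = √R * (√R * m v) := by rw [← mul_assoc, hsq]
        _ ≤ √R := mul_le_of_le_one_right hs0 a2
    have := two_fractions (hMw u (by omega)) (hMw v (by omega)) (hκ u (by omega))
      (hκ v (by omega)) hne b1 b2
    linarith
  -- the small ones
  let E2 : Finset ℕ := (Ico 0 (N + 1)).filter (fun u => u ∉ E1 ∧ 4 * (m u : ℝ) < K)
  have hE2 : E2.card ≤ 1 := by
    rw [card_le_one]
    intro u hu v hv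
    by_contra huv
    rw [mem_filter, mem_Ico] at hu hv
    have e := hsame u v hu.1.2 hv.1.2 hu.2.1 hv.2.1
    have hmne : m u ≠ m v := fun h => huv (hinj u (by omega) v (by omega) h)
    have h1 := hal v (by omega)
    have c1 := hcone v (by omega)
    rw [← e] at h1 c1
    have h2 := same_fraction hmne (hal u (by omega)) h1 (hcone u (by omega)) c1
    have h3 := hu.2.2
    have h4 := hv.2.2
    rw [← hKdef] at h2
    linarith
  -- count
  have hcount : N - 2 ≤ ((Ico 1 (N + 1)).filter (fun u => ¬ (u ∈ E1 ∪ E2))).card := by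
    have h1 := card_filter_add_card_filter_not (s := Ico 1 (N + 1)) (fun u => u ∈ E1 ∪ E2)
    rw [Nat.card_Ico] at h1
    have h2 : ((Ico 1 (N + 1)).filter (fun u => u ∈ E1 ∪ E2)).card ≤ (E1 ∪ E2).card := by
      apply card_le_card
      intro u hu
      exact (mem_filter.1 hu).2
    have h3 := card_union_le E1 E2
    omega
  have hbig : (K / 4) ^ (N - 2) ≤ ∏ u ∈ Ico 1 (N + 1), (m u : ℝ) := by
    set S := (Ico 1 (N + 1)).filter (fun u => ¬ (u ∈ E1 ∪ E2)) with hS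
    have h1 : ∏ u ∈ S, (m u : ℝ) ≤ ∏ u ∈ Ico 1 (N + 1), (m u : ℝ) := by
      rw [← prod_sdiff (filter_subset (fun u => ¬ (u ∈ E1 ∪ E2)) (Ico 1 (N + 1)))]
      have h3 := hge1 (Ico 1 (N + 1) \ S) (fun w hw' => by
        rw [mem_sdiff, mem_Ico] at hw'; omega)
      have h4 : (0 : ℝ) ≤ ∏ u ∈ S, (m u : ℝ) := prod_nonneg (fun _ _ => Nat.cast_nonneg _)
      rw [← hS]
      nlinarith
    have h2 : (K / 4) ^ S.card ≤ ∏ u ∈ S, (m u : ℝ) := by
      rw [← prod_const]
      apply prod_le_prod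
      · intro u _
        linarith
      · intro u hu
        rw [hS, mem_filter, mem_Ico, mem_union, not_or] at hu
        obtain ⟨⟨-, hu1⟩, hu2, hu3⟩ := hu
        by_contra hcon
        apply hu3
        refine mem_filter.2 ⟨mem_Ico.2 ⟨Nat.zero_le _, hu1⟩, hu2, ?_⟩
        linarith
    refine le_trans ?_ (h2.trans h1)
    exact pow_le_pow_right₀ (by linarith) hcount
  have hfin : (K / 4) ^ 8 < 2 * K ^ 6 := by
    calc (K / 4) ^ 8 ≤ (K / 4) ^ (N - 2) := pow_le_pow_right₀ (by linarith) (by omega)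
      _ ≤ _ := hbig
      _ < 2 * κ ^ 3 := hP1
      _ ≤ 2 * (K ^ 2) ^ 3 := by
        have := pow_le_pow_left₀ (by linarith : (0 : ℝ) ≤ κ) hκK 3
        linarith
      _ = 2 * K ^ 6 := by ring
  have hK6 : 0 < K ^ 6 := by positivity
  have h9 : (K / 4) ^ 8 = K ^ 6 * (K ^ 2 / 65536) := by ring
  rw [h9] at hfin
  have h10 : K ^ 6 * (K ^ 2 / 65536) < K ^ 6 * 2 := by linarith
  have h11 := lt_of_mul_lt_mul_left h10 hK6.le
  nlinarith

end Vale.P028.H995
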