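import Vale.Agent.P028.MathlibUsed

/-!
# Sums over marked words

Every element `y` of `S` has at every place `j` a mark `mk y j`: `0` = no mark, `1` = a leak,
`k ≥ 2` = a rest mark. Leaks have weight `c`, rest marks have weight `φ j * r j k`, where the `r`
are summable and `φ` is increasing in the place. For the elements with the same marks before a
place `t`, the possible next leaks have gaps (`φ` doubles), and, up to a bounded number, an element
whose next leak is at `a` has a rest mark before the next possible leak.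
-/

namespace Vale.P028.H995

open Finset

section marks

variable {β : Type*}

/-- the first mark at or after `t` is at `a`, and is a leak -/
def FL (mk : β → ℕ → ℕ) (t a : ℕ) (y : β) : Prop :=
  t ≤ a ∧ (∀ j, t ≤ j → j < a → mk y j = 0) ∧ mk y a = 1

/-- the weight of the mark `k` at the place `j` -/
noncomputable def om (c : ℝ) (φ : ℕ → ℝ) (r : ℕ → ℕ → ℝ) (j k : ℕ) : ℝ :=
  if k = 0 then 1 else if k = 1 then c else φ j * r j k

theorem om_nonneg {c : ℝ} (hc : 0 ≤ c) {φ : ℕ → ℝ} (hφ : ∀ j, 0 ≤ φ j) {r : ℕ → ℕ → ℝ}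
    (hr : ∀ j k, 0 ≤ r j k) (j k : ℕ) : 0 ≤ om c φ r j k := by
  unfold om
  split_ifs
  · exact zero_le_one
  · exact hc
  · exact mul_nonneg (hφ j) (hr j k)

/-- sums over sets with doubling values -/
theorem sum_double {φ : ℕ → ℝ} (C : Finset ℕ) {B : ℝ} (hB0 : 0 ≤ B) (hB : ∀ b ∈ C, φ b ≤ B)
    (hφ : ∀ j, 0 ≤ φ j)
    (h : ∀ b ∈ C, ∀ b' ∈ C, b < b' → 2 * φ b ≤ φ b') : ∑ b ∈ C, φ b ≤ 2 * B := by
  classical
  induction C using Finset.induction_on_max generalizing B with
  | empty => simpa using hB0
  | insert a s hlt ih =>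
    have ha : a ∉ s := fun h' => lt_irrefl _ (hlt a h')
    rw [sum_insert ha]
    have h1 : φ a ≤ B := hB a (mem_insert_self _ _)
    have h2 : ∑ b ∈ s, φ b ≤ 2 * (φ a / 2) := by
      refine ih (div_nonneg (hφ a) (by norm_num)) (fun b hb => ?_)
        (fun b hb b' hb' => h b (mem_insert_of_mem hb) b' (mem_insert_of_mem hb'))
      have := h b (mem_insert_of_mem hb) a (mem_insert_self _ _) (hlt b hb)
      linarith
    linarith

open Classical in
/-- **The sum over marked words.** -/
theorem marks_sum {T : ℕ} (S : Finset β) (mk : β → ℕ → ℕ) {c : ℝ} (hc : 0 ≤ c) {φ : ℕ → ℝ}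
    {r : ℕ → ℕ → ℝ} (hφ0 : ∀ j, 0 ≤ φ j) (hφ1 : ∀ j, φ j ≤ 1) (hφm : ∀ i j, i ≤ j → φ i ≤ φ j)
    (hr : ∀ j k, 0 ≤ r j k) (R : Finset (ℕ × ℕ))
    (hR : ∀ y ∈ S, ∀ j, 2 ≤ mk y j → (j, mk y j) ∈ R) (hRs : ∑ x ∈ R, r x.1 x.2 ≤ 1 / 4)
    (hT : ∀ y ∈ S, ∀ j, T ≤ j → mk y j = 0)
    {K : ℝ} (hK : ∀ S' ⊆ S, (∀ y ∈ S', ∀ y' ∈ S', ∀ j, mk y j = mk y' j) → (S'.card : ℝ) ≤ K)
    (hgap : ∀ t a a' y y', y ∈ S → y' ∈ S → (∀ j < t, mk y j = mk y' j) → FL mk t a y →
      FL mk t a' y' → a < a' → 2 * φ a ≤ φ a')
    {n1 : ℕ} (hB : ∀ (n t : ℕ) (y : ℕ → β) (b : ℕ → ℕ), (∀ s ≤ n, y s ∈ S) →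
      (∀ s ≤ n, ∀ j < t, mk (y s) j = mk (y 0) j) → (∀ s ≤ n, FL mk t (b s) (y s)) →
      (∀ s < n, b s < b (s + 1)) →
      (∀ s < n, ∃ a' y', b s < a' ∧ a' ≤ b (s + 1) ∧ y' ∈ S ∧ (∀ j < t, mk y' j = mk (y 0) j) ∧
        FL mk t a' y' ∧ ∀ j, b s < j → j < a' → mk (y s) j < 2) → n ≤ n1)
    (hcn : c * (n1 + 4) ≤ 1 / 4) :
    ∑ y ∈ S, ∏ j ∈ range T, om c φ r j (mk y j) ≤ 2 * K := by
  have hK0 : 0 ≤ K := by simpa using hK ∅ (empty_subset _) (by simp)
  set C : ℝ := 2 * K with hC
  have hC0 : 0 ≤ C := by positivity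
  have hom := om_nonneg hc hφ0 hr
  set Φ : ℕ → ℝ := fun a => if T < a then 1 else φ a with hΦ
  have hΦ0 : ∀ a, 0 ≤ Φ a := fun a => by simp only [hΦ]; split_ifs; exacts [zero_le_one, hφ0 a]
  have hφΦ : ∀ b a, b ≤ a → φ b ≤ Φ a := fun b a hba => by
    simp only [hΦ]
    split_ifs
    · exact hφ1 b
    · exact hφm b a hba
  have hφT : ∀ b a, T < a → φ b ≤ Φ a := fun b a hba => by
    simp only [hΦ]
    rw [if_pos hba]
    exact hφ1 b
  set Cnd : ℕ → ℕ → β → Prop := fun a t y => T < a ∨ ∃ j, t ≤ j ∧ j < a ∧ 2 ≤ mk y j with hCnd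
  set W : ℕ → β → ℝ := fun t y => ∏ j ∈ Ico t T, om c φ r j (mk y j) with hW
  have hW0 : ∀ t y, 0 ≤ W t y := fun t y => prod_nonneg fun j _ => hom _ _
  -- the main claim
  have main : ∀ d t, T ≤ t + d → ∀ S' ⊆ S, (∀ y ∈ S', ∀ y' ∈ S', ∀ j < t, mk y j = mk y' j) →
      ∀ a, ∑ y ∈ S'.filter (Cnd a t), W t y ≤ C * Φ a := by
    intro d
    induction d with
    | zero =>
      intro t ht S' hS' hag a
      have htT : T ≤ t := by omega
      by_cases ha : T < a
      · have h1 : ∑ y ∈ S'.filter (Cnd a t), W t y ≤ ∑ y ∈ S', 1 := by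
          refine (sum_le_sum_of_subset_of_nonneg (filter_subset _ _) fun y _ _ => hW0 t y).trans ?_
          refine sum_le_sum fun y _ => ?_
          simp only [hW]
          rw [Ico_eq_empty (by omega), prod_empty]
        rw [sum_const, nsmul_eq_mul, mul_one] at h1
        have h2 : (S'.card : ℝ) ≤ K := hK S' hS' fun y hy y' hy' j => by
          rcases lt_or_ge j t with h | h
          · exact hag y hy y' hy' j h
          · rw [hT y (hS' hy) j (htT.trans h), hT y' (hS' hy') j (htT.trans h)]
        have h3 : Φ a = 1 := by simp only [hΦ]; rw [if_pos ha]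
        rw [h3]
        linarith
      · have h1 : S'.filter (Cnd a t) = ∅ := by
          rw [filter_eq_empty_iff]
          rintro y hy (h | ⟨j, h1, h2, h3⟩)
          · exact ha h
          · omega
        rw [h1, sum_empty]
        exact mul_nonneg hC0 (hΦ0 a)
    | succ d ih =>
      intro t ht S' hS' hag a
      by_cases htT : T ≤ t
      · exact ih t (by omega) S' hS' hag a
      rw [not_le] at htT
      -- the first mark
      set fm : β → ℕ := fun y => if h : ∃ j, t ≤ j ∧ mk y j ≠ 0 then Nat.find h else T with hfm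
      have fm_spec : ∀ y ∈ S', (fm y < T ∧ t ≤ fm y ∧ mk y (fm y) ≠ 0 ∧
          ∀ j, t ≤ j → j < fm y → mk y j = 0) ∨
          (fm y = T ∧ ∀ j, t ≤ j → mk y j = 0) := by
        intro y hy
        by_cases h : ∃ j, t ≤ j ∧ mk y j ≠ 0
        · left
          have e : fm y = Nat.find h := by simp only [hfm]; rw [dif_pos h]
          have h1 := Nat.find_spec h
          rw [← e] at h1
          refine ⟨?_, h1.1, h1.2, fun j hj hj' => ?_⟩
          · by_contra hcon
            exact h1.2 (hT y (hS' hy) _ (not_lt.1 hcon))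
          · by_contra hcon
            rw [e] at hj'
            exact Nat.find_min h hj' ⟨hj, hcon⟩
        · right
          have e : fm y = T := by simp only [hfm]; rw [dif_neg h]
          push Not at h
          exact ⟨e, h⟩
      -- agreement after the first mark
      have agree : ∀ (x : ℕ × ℕ), ∀ y ∈ S', ∀ y' ∈ S', fm y = x.1 → fm y' = x.1 →
          mk y x.1 = x.2 → mk y' x.1 = x.2 → ∀ j < x.1 + 1, mk y j = mk y' j := by
        intro x y hy y' hy' h1 h2 h3 h4 j hj
        rcases lt_or_ge j t with h5 | h5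
        · exact hag y hy y' hy' j h5
        rcases Nat.lt_or_ge j x.1 with h6 | h6
        · have e1 : mk y j = 0 := by
            rcases fm_spec y hy with ⟨-, -, -, h7⟩ | ⟨-, h7⟩
            · exact h7 j h5 (by rw [h1]; exact h6)
            · exact h7 j h5
          have e2 : mk y' j = 0 := by
            rcases fm_spec y' hy' with ⟨-, -, -, h7⟩ | ⟨-, h7⟩
            · exact h7 j h5 (by rw [h2]; exact h6)
            · exact h7 j h5
          rw [e1, e2]
        · have e : j = x.1 := by omega
          rw [e, h3, h4]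
      -- the product
      have hprod : ∀ y ∈ S', fm y < T → W t y = om c φ r (fm y) (mk y (fm y)) * W (fm y + 1) y := by
        intro y hy hlt
        rcases fm_spec y hy with ⟨-, h2, -, h4⟩ | ⟨h1, -⟩
        · simp only [hW]
          rw [← prod_Ico_consecutive _ h2 hlt.le, prod_eq_one, one_mul,
            prod_eq_prod_Ico_succ_bot hlt]
          intro j hj
          rw [mem_Ico] at hj
          rw [h4 j hj.1 hj.2]
          simp [om]
        · omega
      set code : β → ℕ × ℕ := fun y => (fm y, mk y (fm y)) with hcode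
      set Sf := S'.filter (Cnd a t) with hSf
      set Cd : Finset ℕ := (range T).filter (fun b => ∃ y ∈ S', code y = (b, 1)) with hCd
      -- one class
      have hcls : ∀ x : ℕ × ℕ, x.1 < T → t ≤ x.1 → x.2 ≠ 0 → ∀ a', (∀ y ∈ S', code y = x →
          Cnd a t y → Cnd a' (x.1 + 1) y) →
          ∑ y ∈ Sf.filter (fun y => code y = x), W t y ≤ om c φ r x.1 x.2 * (C * Φ a') := by
        intro x hx1 hx2 hx3 a' ha'
        have h1 := ih (x.1 + 1) (by omega) (S'.filter (fun y => code y = x))
          ((filter_subset _ _).trans hS') (fun y hy y' hy' => by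
            rw [mem_filter] at hy hy'
            have e1 : fm y = x.1 := congrArg Prod.fst hy.2
            have e2 : fm y' = x.1 := congrArg Prod.fst hy'.2
            have e3 : mk y (fm y) = x.2 := congrArg Prod.snd hy.2
            have e4 : mk y' (fm y') = x.2 := congrArg Prod.snd hy'.2
            rw [e1] at e3
            rw [e2] at e4
            exact agree x y hy.1 y' hy'.1 e1 e2 e3 e4) a'
        have h2 : ∑ y ∈ Sf.filter (fun y => code y = x), W t y ≤
            om c φ r x.1 x.2 * ∑ y ∈ (S'.filter (fun y => code y = x)).filter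
              (Cnd a' (x.1 + 1)), W (x.1 + 1) y := by
          rw [mul_sum]
          have e : ∑ y ∈ Sf.filter (fun y => code y = x), W t y =
              ∑ y ∈ Sf.filter (fun y => code y = x), om c φ r x.1 x.2 * W (x.1 + 1) y := by
            refine sum_congr rfl fun y hy => ?_
            obtain ⟨hy1, hy2⟩ := mem_filter.1 hy
            have hy3 := (mem_filter.1 hy1).1
            have e1 : fm y = x.1 := congrArg Prod.fst hy2
            have e3 : mk y (fm y) = x.2 := congrArg Prod.snd hy2
            rw [hprod y hy3 (by rw [e1]; exact hx1), e3, e1]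
          rw [e]
          refine sum_le_sum_of_subset_of_nonneg (fun y hy => ?_) fun y _ _ =>
            mul_nonneg (hom _ _) (hW0 _ _)
          obtain ⟨hy1, hy2⟩ := mem_filter.1 hy
          obtain ⟨hy3, hy4⟩ := mem_filter.1 hy1
          exact mem_filter.2 ⟨mem_filter.2 ⟨hy3, hy2⟩, ha' y hy3 hy2 hy4⟩
        exact h2.trans (mul_le_mul_of_nonneg_left h1 (hom _ _))
      -- no mark
      have hnone : ∑ y ∈ Sf.filter (fun y => code y = (T, 0)), W t y ≤ K * Φ a := by
        by_cases ha : T < a
        · have h3 : Φ a = 1 := by simp only [hΦ]; rw [if_pos ha]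
          rw [h3, mul_one]
          have h4 : ∀ y ∈ Sf.filter (fun y => code y = (T, 0)), ∀ j, t ≤ j → mk y j = 0 := by
            intro y hy j hj
            obtain ⟨hy1, hy2⟩ := mem_filter.1 hy
            rcases fm_spec y (mem_filter.1 hy1).1 with ⟨h5, -⟩ | ⟨-, h5⟩
            · have : fm y = T := congrArg Prod.fst hy2
              omega
            · exact h5 j hj
          calc ∑ y ∈ Sf.filter (fun y => code y = (T, 0)), W t y
              ≤ ∑ y ∈ Sf.filter (fun y => code y = (T, 0)), (1 : ℝ) := by
                refine sum_le_sum fun y hy => le_of_eq ?_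
                simp only [hW]
                refine prod_eq_one fun j hj => ?_
                rw [h4 y hy j (mem_Ico.1 hj).1]
                simp [om]
            _ = ((Sf.filter (fun y => code y = (T, 0))).card : ℝ) := by
                rw [sum_const, nsmul_eq_mul, mul_one]
            _ ≤ K := by
                refine hK _ (((filter_subset _ _).trans (filter_subset _ _)).trans hS') ?_
                intro y hy y' hy' j
                rcases lt_or_ge j t with h | h
                · exact hag y (mem_filter.1 (mem_filter.1 hy).1).1 y'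
                    (mem_filter.1 (mem_filter.1 hy').1).1 j h
                · rw [h4 y hy j h, h4 y' hy' j h]
        · have h1 : Sf.filter (fun y => code y = (T, 0)) = ∅ := by
            rw [filter_eq_empty_iff]
            intro y hy hcy
            obtain ⟨hy1, hy2⟩ := mem_filter.1 hy
            rcases hy2 with h | ⟨j, h2, h3, h4⟩
            · exact ha h
            · rcases fm_spec y hy1 with ⟨h5, -⟩ | ⟨-, h5⟩
              · have : fm y = T := congrArg Prod.fst hcy
                omega
              · have := h5 j h2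
                omega
          rw [h1, sum_empty]
          exact mul_nonneg hK0 (hΦ0 a)
      -- rest marks
      have hrest : ∀ x ∈ R, ∑ y ∈ (Sf.filter (fun y => 2 ≤ mk y (fm y))).filter
          (fun y => code y = x), W t y ≤ r x.1 x.2 * (C * Φ a) := by
        intro x _
        by_cases hne : ∃ y ∈ (Sf.filter (fun y => 2 ≤ mk y (fm y))), code y = x
        · obtain ⟨y0, hy0, hy0c⟩ := hne
          obtain ⟨hy1, hy2⟩ := mem_filter.1 hy0
          obtain ⟨hy3, hy4⟩ := mem_filter.1 hy1
          have e1 : fm y0 = x.1 := congrArg Prod.fst hy0c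
          have e2 : mk y0 (fm y0) = x.2 := congrArg Prod.snd hy0c
          have hx2 : 2 ≤ x.2 := by rw [← e2]; exact hy2
          obtain ⟨hx1, hx3⟩ : x.1 < T ∧ t ≤ x.1 := by
            rcases fm_spec y0 hy3 with ⟨h5, h6, -⟩ | ⟨h5, h6⟩
            · rw [← e1]
              exact ⟨h5, h6⟩
            · have := h6 (fm y0) (by omega)
              omega
          have h1 := hcls x hx1 hx3 (by omega) (T + 1) (fun y _ _ _ => Or.inl (Nat.lt_succ_self T))
          have h2 : Φ (T + 1) = 1 := by simp only [hΦ]; rw [if_pos (Nat.lt_succ_self T)]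
          have h3 : om c φ r x.1 x.2 = φ x.1 * r x.1 x.2 := by
            unfold om
            rw [if_neg (by omega), if_neg (by omega)]
          have h4 : φ x.1 ≤ Φ a := by
            rcases hy4 with h | ⟨j, h5, h6, h7⟩
            · exact hφT _ _ h
            · refine hφΦ _ _ ?_
              by_contra hcon
              rcases fm_spec y0 hy3 with ⟨-, -, -, h8⟩ | ⟨-, h8⟩
              · have := h8 j h5 (by omega)
                omega
              · have := h8 j h5
                omega
          rw [h2, h3, mul_one] at h1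
          calc ∑ y ∈ (Sf.filter (fun y => 2 ≤ mk y (fm y))).filter (fun y => code y = x), W t y
              ≤ ∑ y ∈ Sf.filter (fun y => code y = x), W t y := by
                refine sum_le_sum_of_subset_of_nonneg ?_ fun y _ _ => hW0 _ _
                exact filter_subset_filter _ (filter_subset _ _)
            _ ≤ φ x.1 * r x.1 x.2 * C := h1
            _ ≤ Φ a * r x.1 x.2 * C :=
                mul_le_mul_of_nonneg_right (mul_le_mul_of_nonneg_right h4 (hr _ _)) hC0
            _ = _ := by ring
        · push Not at hne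
          rw [filter_eq_empty_iff.2 fun y hy => hne y hy, sum_empty]
          exact mul_nonneg (hr _ _) (mul_nonneg hC0 (hΦ0 a))
      -- leaks
      set V : ℕ → ℝ := fun b => ∑ y ∈ Sf.filter (fun y => code y = (b, 1)), W t y with hV
      have hfl : ∀ b, ∀ y ∈ S', code y = (b, 1) → FL mk t b y := by
        intro b y hy hcy
        have e1 : fm y = b := congrArg Prod.fst hcy
        have e2 : mk y (fm y) = 1 := congrArg Prod.snd hcy
        rcases fm_spec y hy with ⟨h1, h2, h3, h4⟩ | ⟨h1, h2⟩
        · rw [e1] at h2 h4 e2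
          exact ⟨h2, h4, e2⟩
        · exfalso
          have := h2 (fm y) (by omega)
          omega
      have hCdT : ∀ b ∈ Cd, b < T ∧ t ≤ b ∧ ∃ y ∈ S', code y = (b, 1) := by
        intro b hb
        obtain ⟨h1, y, hy, h2⟩ := mem_filter.1 hb
        exact ⟨mem_range.1 h1, (hfl b y hy h2).1, y, hy, h2⟩
      have hom1 : ∀ b, om c φ r b 1 = c := fun b => by simp [om]
      -- the conditions
      have hcond : ∀ b, ∀ y ∈ S', code y = (b, 1) → Cnd a t y → Cnd a (b + 1) y := by
        intro b y hy hcy h
        rcases h with h | ⟨j, h1, h2, h3⟩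
        · exact Or.inl h
        · right
          obtain ⟨h4, h5, h6⟩ := hfl b y hy hcy
          refine ⟨j, ?_, h2, h3⟩
          by_contra hcon
          rcases Nat.lt_or_ge j b with h7 | h7
          · have := h5 j h1 h7
            omega
          · have : j = b := by omega
            rw [this] at h3
            omega
      have hV1 : ∀ b ∈ Cd, V b ≤ c * (C * Φ a) := by
        intro b hb
        obtain ⟨h1, h2, -⟩ := hCdT b hb
        have := hcls (b, 1) h1 h2 one_ne_zero a (hcond b)
        rwa [hom1] at this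
      have hV0 : ∀ b ∈ Cd, a ≤ b → ¬ T < a → V b ≤ 0 := by
        intro b hb hab haT
        refine le_of_eq ?_
        simp only [hV]
        rw [filter_eq_empty_iff.2, sum_empty]
        intro y hy hcy
        obtain ⟨hy1, hy2⟩ := mem_filter.1 hy
        rcases hcond b y hy1 hcy hy2 with h | ⟨j, h1, h2, -⟩
        · exact haT h
        · omega
      -- the next candidate
      have hnext : ∀ b ∈ Cd, (∃ b' ∈ Cd, b < b') → ∃ b' ∈ Cd, b < b' ∧ ∀ b'' ∈ Cd, b < b'' → b' ≤ b'' := by
        intro b _ h
        have h1 : (Cd.filter (fun b' => b < b')).Nonempty := by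
          obtain ⟨b', h2, h3⟩ := h
          exact ⟨b', mem_filter.2 ⟨h2, h3⟩⟩
        obtain ⟨b', h2, h3⟩ := exists_min_image _ id h1
        obtain ⟨h4, h5⟩ := mem_filter.1 h2
        exact ⟨b', h4, h5, fun b'' h6 h7 => h3 b'' (mem_filter.2 ⟨h6, h7⟩)⟩
      set nx : ℕ → ℕ := fun b => if h : ∃ b' ∈ Cd, b < b' ∧ ∀ b'' ∈ Cd, b < b'' → b' ≤ b'' then
        Classical.choose h else b with hnx
      have nx_spec : ∀ b ∈ Cd, (∃ b' ∈ Cd, b < b') → nx b ∈ Cd ∧ b < nx b ∧
          ∀ b'' ∈ Cd, b < b'' → nx b ≤ b'' := by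
        intro b hb h
        have h1 := hnext b hb h
        have e : nx b = Classical.choose h1 := by simp only [hnx]; rw [dif_pos h1]
        rw [e]
        exact Classical.choose_spec h1
      -- the classes of candidates
      set C1 := Cd.filter (fun b => ¬ ∃ b' ∈ Cd, b < b') with hC1
      set C2 := (Cd \ C1).filter (fun b => ∃ y ∈ S', code y = (b, 1) ∧
        ∀ j, b < j → j < nx b → mk y j < 2) with hC2
      set C3 := ((Cd \ C1) \ C2).filter (fun b => b < a ∧ a < nx b) with hC3
      set C4 := ((Cd \ C1) \ C2) \ C3 with hC4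
      have c1 : C1.card ≤ 1 := by
        rw [card_le_one]
        intro b hb b' hb'
        obtain ⟨h1, h2⟩ := mem_filter.1 hb
        obtain ⟨h3, h4⟩ := mem_filter.1 hb'
        push Not at h2 h4
        exact le_antisymm (h4 b h1) (h2 b' h3)
      have hnl : ∀ b ∈ Cd \ C1, b ∈ Cd ∧ ∃ b' ∈ Cd, b < b' := by
        intro b hb
        obtain ⟨h1, h2⟩ := mem_sdiff.1 hb
        refine ⟨h1, ?_⟩
        by_contra hcon
        exact h2 (mem_filter.2 ⟨h1, hcon⟩)
      have c3 : C3.card ≤ 1 := by
        rw [card_le_one]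
        have key : ∀ b ∈ C3, ∀ b' ∈ C3, ¬ b < b' := by
          intro b hb b' hb' hlt
          obtain ⟨h1, h2, h3⟩ := mem_filter.1 hb
          obtain ⟨h1', h2', h3'⟩ := mem_filter.1 hb'
          obtain ⟨h4, h5⟩ := hnl b (mem_sdiff.1 h1).1
          have h6 := (nx_spec b h4 h5).2.2 b' (hnl b' (mem_sdiff.1 h1').1).1 hlt
          omega
        intro b hb b' hb'
        rcases lt_trichotomy b b' with h | h | h
        · exact absurd h (key b hb b' hb')
        · exact h
        · exact absurd h (key b' hb' b hb)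
      have c2 : C2.card ≤ n1 := by
        -- the increasing enumeration
        rcases C2.eq_empty_or_nonempty with h0 | h0
        · rw [h0, card_empty]
          exact Nat.zero_le _
        set n := C2.card with hn
        have hn0 : 0 < n := card_pos.2 h0
        set bb := C2.orderEmbOfFin (rfl : C2.card = n) with hbb
        have hbbm : ∀ s, bb s ∈ C2 := fun s => orderEmbOfFin_mem _ _ _
        have hS2 : ∀ b ∈ C2, b ∈ Cd ∧ (∃ b' ∈ Cd, b < b') ∧ ∃ y ∈ S', code y = (b, 1) ∧
            ∀ j, b < j → j < nx b → mk y j < 2 := by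
          intro b hb
          obtain ⟨h1, h2⟩ := mem_filter.1 hb
          obtain ⟨h3, h4⟩ := hnl b h1
          exact ⟨h3, h4, h2⟩
        set last : ℕ := nx (bb ⟨n - 1, by omega⟩) with hlast
        obtain ⟨l1, l2, l3⟩ := hS2 _ (hbbm ⟨n - 1, by omega⟩)
        obtain ⟨l4, l5, l6⟩ := nx_spec _ l1 l2
        obtain ⟨l7, l8, yl, l9, l10⟩ := hCdT _ l4
        -- the sequences
        set b : ℕ → ℕ := fun s => if h : s < n then bb ⟨s, h⟩ else last with hb
        have hbC : ∀ s, b s ∈ Cd := by
          intro s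
          simp only [hb]
          split_ifs with h
          · exact (hS2 _ (hbbm _)).1
          · exact l4
        have hy : ∀ s, ∃ y ∈ S', code y = (b s, 1) ∧ (s < n → ∀ j, b s < j → j < nx (b s) →
            mk y j < 2) := by
          intro s
          by_cases h : s < n
          · obtain ⟨-, -, y, h1, h2, h3⟩ := hS2 _ (hbbm ⟨s, h⟩)
            have e : b s = bb ⟨s, h⟩ := by simp only [hb]; rw [dif_pos h]
            rw [e]
            exact ⟨y, h1, h2, fun _ => h3⟩
          · obtain ⟨-, -, y, h1, h2⟩ := hCdT _ (hbC s)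
            exact ⟨y, h1, h2, fun h' => absurd h' h⟩
        choose y hy1 hy2 hy3 using hy
        have hbn : ∀ s < n, nx (b s) ≤ b (s + 1) ∧ b s < nx (b s) ∧ nx (b s) ∈ Cd := by
          intro s hs
          have e : b s = bb ⟨s, hs⟩ := by simp only [hb]; rw [dif_pos hs]
          obtain ⟨h1, h2, -⟩ := hS2 _ (hbbm ⟨s, hs⟩)
          obtain ⟨h3, h4, h5⟩ := nx_spec _ h1 h2
          rw [e]
          refine ⟨?_, h4, h3⟩
          by_cases hs' : s + 1 < n
          · have e' : b (s + 1) = bb ⟨s + 1, hs'⟩ := by simp only [hb]; rw [dif_pos hs']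
            rw [e']
            refine h5 _ (hS2 _ (hbbm ⟨s + 1, hs'⟩)).1 ?_
            exact bb.strictMono (Fin.mk_lt_mk.2 (Nat.lt_succ_self s))
          · have e' : b (s + 1) = last := by simp only [hb]; rw [dif_neg hs']
            have e2 : (⟨s, hs⟩ : Fin n) = ⟨n - 1, by omega⟩ := Fin.ext (by simp; omega)
            rw [e', hlast, e2]
        refine hB n t y b (fun s _ => hS' (hy1 s)) (fun s _ j hj => hag _ (hy1 s) _ (hy1 0) j hj)
          (fun s _ => hfl _ _ (hy1 s) (hy2 s)) (fun s hs => ?_) fun s hs => ?_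
        · obtain ⟨h1, h2, -⟩ := hbn s hs
          omega
        · obtain ⟨h1, h2, h3⟩ := hbn s hs
          obtain ⟨-, -, y', h4, h5⟩ := hCdT _ h3
          exact ⟨nx (b s), y', h2, h1, hS' h4, fun j hj => hag _ h4 _ (hy1 0) j hj,
            hfl _ _ h4 h5, hy3 s hs⟩
      have hV4 : ∀ b ∈ C4, V b ≤ c * (C * (if nx b ≤ a then φ (nx b) else 0)) := by
        intro b hb
        obtain ⟨h1, h2⟩ := mem_sdiff.1 hb
        obtain ⟨h3, h4⟩ := mem_sdiff.1 h1
        obtain ⟨h5, h6⟩ := hnl b h3
        obtain ⟨h7, h8, h9⟩ := nx_spec b h5 h6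
        obtain ⟨h10, h11, -⟩ := hCdT b h5
        obtain ⟨h12, -, -⟩ := hCdT _ h7
        split_ifs with h13
        · have h14 : Φ (nx b) = φ (nx b) := by simp only [hΦ]; rw [if_neg (by omega)]
          have := hcls (b, 1) h10 h11 one_ne_zero (nx b) (fun y hy hcy _ => by
            right
            by_contra hcon
            push Not at hcon
            refine h4 (mem_filter.2 ⟨h3, y, hy, hcy, fun j h15 h16 => hcon j h15 h16⟩))
          rwa [hom1, h14] at this
        · rw [mul_zero, mul_zero]
          rw [not_le] at h13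
          have h15 : a ≤ b := by
            by_contra hcon
            exact h2 (mem_filter.2 ⟨h1, by omega, h13⟩)
          exact hV0 b h5 h15 (by omega)
      -- the sum over the candidates
      have hsumC : ∑ b ∈ Cd, V b ≤ c * (n1 + 4) * (C * Φ a) := by
        have hCa : 0 ≤ c * (C * Φ a) := mul_nonneg hc (mul_nonneg hC0 (hΦ0 a))
        have e1 : ∑ b ∈ Cd, V b = ∑ b ∈ C4, V b + ∑ b ∈ C3, V b + ∑ b ∈ C2, V b +
            ∑ b ∈ C1, V b := by
          rw [hC4, sum_sdiff (filter_subset _ _), sum_sdiff (filter_subset _ _),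
            sum_sdiff (filter_subset _ _)]
        have b1 : ∑ b ∈ C1, V b ≤ 1 * (c * (C * Φ a)) := by
          refine (sum_le_card_nsmul _ _ _ fun b hb => hV1 b (mem_filter.1 hb).1).trans ?_
          rw [nsmul_eq_mul]
          exact mul_le_mul_of_nonneg_right (by exact_mod_cast c1) hCa
        have b2 : ∑ b ∈ C2, V b ≤ n1 * (c * (C * Φ a)) := by
          refine (sum_le_card_nsmul _ _ _ fun b hb =>
            hV1 b (hnl b (mem_filter.1 hb).1).1).trans ?_
          rw [nsmul_eq_mul]
          exact mul_le_mul_of_nonneg_right (by exact_mod_cast c2) hCa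
        have b3 : ∑ b ∈ C3, V b ≤ 1 * (c * (C * Φ a)) := by
          refine (sum_le_card_nsmul _ _ _ fun b hb =>
            hV1 b (hnl b (mem_sdiff.1 (mem_filter.1 hb).1).1).1).trans ?_
          rw [nsmul_eq_mul]
          exact mul_le_mul_of_nonneg_right (by exact_mod_cast c3) hCa
        have b4 : ∑ b ∈ C4, V b ≤ 2 * (c * (C * Φ a)) := by
          have hC4d : ∀ b ∈ C4, b ∈ Cd ∧ ∃ b' ∈ Cd, b < b' := fun b hb =>
            hnl b (mem_sdiff.1 (mem_sdiff.1 hb).1).1
          have h1 : ∑ b ∈ C4, (if nx b ≤ a then φ (nx b) else 0) ≤ 2 * Φ a := by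
            rw [← sum_filter]
            have hinj : Set.InjOn nx (C4.filter (fun b => nx b ≤ a) : Finset ℕ) := by
              intro b hb b' hb' hbb
              have hb1 := hC4d b (mem_filter.1 hb).1
              have hb2 := hC4d b' (mem_filter.1 hb').1
              obtain ⟨-, p2, p3⟩ := nx_spec b hb1.1 hb1.2
              obtain ⟨-, q2, q3⟩ := nx_spec b' hb2.1 hb2.2
              rcases lt_trichotomy b b' with h | h | h
              · have := p3 b' hb2.1 h
                omega
              · exact h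
              · have := q3 b hb1.1 h
                omega
            have h2 : ∑ b ∈ C4.filter (fun b => nx b ≤ a), φ (nx b) =
                ∑ b ∈ (C4.filter (fun b => nx b ≤ a)).image nx, φ b := by
              rw [sum_image hinj]
            rw [h2]
            refine sum_double _ (hΦ0 a) (fun b hb => ?_) hφ0 fun b hb b' hb' hlt => ?_
            · obtain ⟨b0, h3, rfl⟩ := mem_image.1 hb
              exact hφΦ _ _ (mem_filter.1 h3).2
            · obtain ⟨b0, h3, rfl⟩ := mem_image.1 hb
              obtain ⟨b1, h4, rfl⟩ := mem_image.1 hb'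
              have h5 := hC4d b0 (mem_filter.1 h3).1
              have h6 := hC4d b1 (mem_filter.1 h4).1
              obtain ⟨-, -, y, g1, g2⟩ := hCdT _ (nx_spec b0 h5.1 h5.2).1
              obtain ⟨-, -, y', g3, g4⟩ := hCdT _ (nx_spec b1 h6.1 h6.2).1
              exact hgap t _ _ y y' (hS' g1) (hS' g3) (hag y g1 y' g3) (hfl _ y g1 g2)
                (hfl _ y' g3 g4) hlt
          calc ∑ b ∈ C4, V b ≤ ∑ b ∈ C4, c * (C * (if nx b ≤ a then φ (nx b) else 0)) :=
                sum_le_sum hV4
            _ = c * C * ∑ b ∈ C4, (if nx b ≤ a then φ (nx b) else 0) := by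
                rw [mul_sum]
                exact sum_congr rfl fun b _ => by ring
            _ ≤ c * C * (2 * Φ a) := mul_le_mul_of_nonneg_left h1 (mul_nonneg hc hC0)
            _ = _ := by ring
        rw [e1]
        have e2 : c * ((n1 : ℝ) + 4) * (C * Φ a) = 2 * (c * (C * Φ a)) + 1 * (c * (C * Φ a)) +
            n1 * (c * (C * Φ a)) + 1 * (c * (C * Φ a)) := by ring
        rw [e2]
        linarith
      -- the decomposition
      have hdec : ∑ y ∈ Sf, W t y ≤ ∑ y ∈ Sf.filter (fun y => code y = (T, 0)), W t y +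
          ∑ x ∈ R, ∑ y ∈ (Sf.filter (fun y => 2 ≤ mk y (fm y))).filter (fun y => code y = x),
            W t y + ∑ b ∈ Cd, V b := by
        have d1 : ∑ x ∈ R, ∑ y ∈ (Sf.filter (fun y => 2 ≤ mk y (fm y))).filter
            (fun y => code y = x), W t y = ∑ y ∈ Sf.filter (fun y => 2 ≤ mk y (fm y)), W t y := by
          refine sum_fiberwise_of_maps_to (fun y hy => ?_) _
          obtain ⟨h1, h2⟩ := mem_filter.1 hy
          exact hR y (hS' (mem_filter.1 h1).1) _ h2
        have d2 : ∑ b ∈ Cd, V b = ∑ y ∈ Sf.filter (fun y => mk y (fm y) = 1), W t y := by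
          rw [← sum_fiberwise_of_maps_to (t := Cd) (g := fm)]
          · refine sum_congr rfl fun b _ => ?_
            simp only [hV]
            refine sum_congr ?_ fun _ _ => rfl
            ext y
            simp only [mem_filter, hcode, Prod.mk.injEq]
            constructor
            · rintro ⟨h0, h1, h2⟩
              exact ⟨⟨h0, h2⟩, h1⟩
            · rintro ⟨⟨h0, h1⟩, h2⟩
              exact ⟨h0, h2, h1⟩
          · intro y hy
            obtain ⟨h1, h2⟩ := mem_filter.1 hy
            have h3 := (mem_filter.1 h1).1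
            refine mem_filter.2 ⟨mem_range.2 ?_, y, h3, by simp only [hcode, h2]⟩
            rcases fm_spec y h3 with ⟨h4, -⟩ | ⟨h4, h5⟩
            · exact h4
            · have := h5 (fm y) (by omega)
              omega
        rw [d1, d2]
        have d3 : ∑ y ∈ Sf, W t y = ∑ y ∈ Sf.filter (fun y => 2 ≤ mk y (fm y)), W t y +
            ∑ y ∈ Sf.filter (fun y => ¬ 2 ≤ mk y (fm y)), W t y :=
          (sum_filter_add_sum_filter_not _ _ _).symm
        have d4 : ∑ y ∈ Sf.filter (fun y => ¬ 2 ≤ mk y (fm y)), W t y ≤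
            ∑ y ∈ Sf.filter (fun y => mk y (fm y) = 1), W t y +
            ∑ y ∈ Sf.filter (fun y => code y = (T, 0)), W t y := by
          have d5 : Sf.filter (fun y => ¬ 2 ≤ mk y (fm y)) ⊆
              Sf.filter (fun y => mk y (fm y) = 1) ∪ Sf.filter (fun y => code y = (T, 0)) := by
            intro y hy
            obtain ⟨h1, h2⟩ := mem_filter.1 hy
            rw [mem_union]
            by_cases h3 : mk y (fm y) = 1
            · exact Or.inl (mem_filter.2 ⟨h1, h3⟩)
            · right
              refine mem_filter.2 ⟨h1, ?_⟩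
              have h4 : mk y (fm y) = 0 := by omega
              rcases fm_spec y (mem_filter.1 h1).1 with ⟨-, -, h5, -⟩ | ⟨h5, -⟩
              · exact absurd h4 h5
              · simp only [hcode]
                rw [h4, h5]
          have d6 := sum_union_inter (s₁ := Sf.filter (fun y => mk y (fm y) = 1))
            (s₂ := Sf.filter (fun y => code y = (T, 0))) (f := W t)
          have d7 : 0 ≤ ∑ y ∈ Sf.filter (fun y => mk y (fm y) = 1) ∩
              Sf.filter (fun y => code y = (T, 0)), W t y := sum_nonneg fun y _ => hW0 _ _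
          have d8 := sum_le_sum_of_subset_of_nonneg d5 (f := W t) fun y _ _ => hW0 _ _
          linarith
        linarith
      have hrs : ∑ x ∈ R, ∑ y ∈ (Sf.filter (fun y => 2 ≤ mk y (fm y))).filter
          (fun y => code y = x), W t y ≤ 1 / 4 * (C * Φ a) := by
        refine (sum_le_sum hrest).trans ?_
        rw [← sum_mul]
        exact mul_le_mul_of_nonneg_right hRs (mul_nonneg hC0 (hΦ0 a))
      have hfin : c * (n1 + 4) * (C * Φ a) ≤ 1 / 4 * (C * Φ a) :=
        mul_le_mul_of_nonneg_right hcn (mul_nonneg hC0 (hΦ0 a))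
      have e3 : C * Φ a = 2 * (K * Φ a) := by rw [hC]; ring
      linarith
  have h := main T 0 (by omega) S (Subset.refl _) (fun _ _ _ _ j hj => absurd hj (Nat.not_lt_zero j))
    (T + 1)
  have h1 : Φ (T + 1) = 1 := by simp only [hΦ]; rw [if_pos (Nat.lt_succ_self T)]
  rw [h1, mul_one] at h
  have h2 : S.filter (Cnd (T + 1) 0) = S :=
    filter_true_of_mem fun y _ => Or.inl (Nat.lt_succ_self T)
  rw [h2] at h
  have h3 : ∀ y, W 0 y = ∏ j ∈ range T, om c φ r j (mk y j) := fun y => by
    simp only [hW]
    rw [range_eq_Ico]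
  simpa only [h3] using h

end marks

end Vale.P028.H995
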